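import Crest.Agent.X212.Eqv71.Nek
import Crest.Agent.X212.Cht98.Cov
import Crest.Agent.X212.Pj41.Cm

/-! Row 212, GL-LOCZ (helper33): shifted necks. -/

set_option autoImplicit false
set_option linter.unusedSectionVars false
noncomputable section
open scoped Manifold ContDiff Topology InnerProductSpace
open MeasureTheory Set Function Filter

namespace Crest.Agent.X212.Lcz33
open An Dgr80 Nd18 Cyf70

variable {E3 : Type} [NormedAddCommGroup E3] [NormedSpace ℝ E3] [FiniteDimensional ℝ E3]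
  [MeasurableSpace E3] [BorelSpace E3]
  {H3 : Type} [TopologicalSpace H3] {I3 : ModelWithCorners ℝ E3 H3} [I3.Boundaryless]
  {Y : Type} [TopologicalSpace Y] [ChartedSpace H3 Y] [IsManifold I3 ∞ Y] [T2Space Y]
  [MeasurableSpace Y] [BorelSpace Y] [SecondCountableTopology Y] [CompactSpace Y]
  {κ : Type} [Fintype κ] {lam : Type} [Fintype lam]
  {E : Type} [NormedAddCommGroup E] [NormedSpace ℝ E] [FiniteDimensional ℝ E]
  [MeasurableSpace E] [BorelSpace E]
  {HM : Type} [TopologicalSpace HM] {I : ModelWithCorners ℝ E HM} [I.Boundaryless]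
  {M : Type} [TopologicalSpace M] [ChartedSpace HM M] [IsManifold I ∞ M]
  [MeasurableSpace M] [BorelSpace M] [T2Space M] [SecondCountableTopology M]
  {D : YD I3 Y κ lam} {B : Base M (Option κ) lam} {G : Geo I M (Option κ) lam}
  {r n : ℕ} (N : ND Y lam) (K : Nk D B G) (c : Cfg M (Option κ) lam r)

theorem jv_sh {p q : Option ℝ} {a s : ℝ} :
    s ∈ Jv (p.map (· - a)) (q.map (· - a)) ↔ s + a ∈ Jv p q := by
  cases p <;> cases q <;> simp [Jv, sub_lt_iff_lt_add, lt_sub_iff_add_lt]

theorem ct_sh (p q : Option ℝ) (a d s : ℝ) :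
    ct (p.map (· - a)) (q.map (· - a)) d (s + -a) = ct p q d s := by
  cases p <;> cases q <;> simp only [ct, Option.map, Option.elim] <;> ring_nf

theorem tf_sh (p q : Option ℝ) (a s : ℝ) :
    tf (p.map (· - a)) (q.map (· - a)) (s + -a) = tf p q s + -a := by
  cases p <;> cases q <;> simp only [tf, Option.map, Option.elim] <;> ring_nf

variable (a : ℝ) (hv : D.Z.IsVol) (hv' : G.F.IsVol)

/-- the neck with time shifted by `-a` -/
def shift : Nk D B G where
  p := K.p.map (· - a)
  q := K.q.map (· - a)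
  ψ := (Cht98.tau Y a).toOpenPartialHomeomorph.trans K.ψ
  tm x := K.tm x + -a
  len := by
    have := K.len
    cases h : K.p <;> cases h' : K.q <;> simp_all
    linarith
  src := Set.ext fun x => by
    simp [K.src, jv_sh, Cht98.tau]
  tgt := Set.ext fun x => by
    simp [K.tgt, jv_sh]
  cont := K.cont.add continuous_const
  tm_ψ x hx := by
    have := K.tm_ψ (x.1, x.2 + a) hx.2
    exact (congrArg (· + -a) this).trans (by simp)
  iso := ((Pj41.fRel_of_iso (F := D.Z) (F' := D.Z) (Cht98.iso_tau D.F.toPre a)).mono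
    ((Cht98.tau Y a).toOpenPartialHomeomorph.trans K.ψ).open_source (subset_univ _) |>.trans
      (Pj41.fRel_of_iso K.iso) fun _ hx => hx.2).iso hv hv'
  P b b' x hx := (K.P b b' _ hx.2).trans (by cases b <;> cases b' <;> rfl)
  o b b' e e' x hx := K.o b b' e e' _ hx.2
  l x hx := K.l _ hx.2
  il := K.il
  a b x hx := (K.a b _ hx.2).trans (by cases b <;> rfl)

theorem nkR_sh : Eqv71.NkR univ univ id K (shift K a hv hv') (-a) :=
  ⟨fun _ _ => tf_sh _ _ _ _, ct_sh _ _ _ _, fun _ _ => ct_sh _ _ _ _ _, fun _ _ _ => rfl,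
    fun _ h => (h trivial).elim, fun _ h => (h trivial).elim, ct_sh _ _ _ _⟩

theorem pt_sh (hB : B.OK I) (hG : G.OK B) {C : ℕ → ℝ} (hT : G.F.Tame C) (hN : N.OK D)
    (h : Eqv71.Ad0 c B G) (q : YW I3 Y →₀ ℝ) (x : M) :
    (N.pt (shift K a hv hv') q : Pt _ _ _ r n).D c x = (N.pt K q : Pt _ _ _ r n).D c x ∧
    (N.pt (shift K a hv hv') q : Pt _ _ _ r n).C c x = (N.pt K q : Pt _ _ _ r n).C c x :=
  have e := nkR_sh K a hv hv'
  have k := Eqv71.cr0_refl hB hG isOpen_univ h fun _ h => (h trivial).elim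
  have p1 := e.pt_rel0 (r := r) (n := n) (Eqv71.kc_refl hB hG isClopen_univ
    (Mp86.bumps_of_tame _ hT)) hN hT hT (fun _ => e.sr hB _) q
  have p2 := Eqv71.pt_nat0 (r := r) (n := n) K hB hG hT isClopen_univ (fun _ h => (h trivial).elim) hN q
  ⟨(p1.D k x trivial).trans (p2.D k x trivial).symm, (p1.C k x trivial).trans (p2.C k x trivial).symm⟩

end Crest.Agent.X212.Lcz33
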