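import Crest.Agent.X212.Rsp69.Win
import Crest.Agent.X212.Gl67.Jet

/-! Row 212, GL-LOCZ (helper33): weighted norms and bounds on windows. -/

set_option autoImplicit false
set_option linter.unusedSectionVars false
noncomputable section
open scoped Manifold ContDiff Topology ENNReal NNReal
open MeasureTheory Set Function Filter Real

namespace Crest.Agent.X212.Lcz33
open An Sob92 Rsp69 Rsp69.Cx Gl67
open Wz78 (SA)

/-- reduction to ultrafilters -/
theorem ev_ultra {β : Type} {l : Filter β} {P : ℝ → β → Prop}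
    (hm : ∀ s t, s ≤ t → ∀ b, P s b → P t b)
    (h : ∀ 𝒰 : Ultrafilter β, (𝒰 : Filter β) ≤ l → ∃ t, ∀ᶠ b in (𝒰 : Filter β), P t b) :
    ∃ t, ∀ᶠ b in l, P t b := by
  by_contra k
  have : Nonempty β := by_contra fun e => k ⟨0, .of_forall fun b => (e ⟨b⟩).elim⟩
  have : (⨅ t, l ⊓ 𝓟 {b | ¬P t b}).NeBot := iInf_neBot_of_directed
    (directed_of_isDirected_le (f := fun t => l ⊓ 𝓟 {b | ¬P t b}) (r := (· ≥ ·)) fun s t e =>
      inf_le_inf_left _ (principal_mono.2 fun b hb hs => hb (hm s t e b hs)))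
    fun t => frequently_iff_neBot.1 (not_eventually.1 fun e => k ⟨t, e⟩)
  have e := fun t => (Ultrafilter.of_le (⨅ t, l ⊓ 𝓟 {b | ¬P t b})).trans (iInf_le _ t)
  obtain ⟨t, ht⟩ := h _ ((e 0).trans inf_le_left)
  obtain ⟨b, h1, h2⟩ := (ht.and (le_principal_iff.1 ((e t).trans inf_le_right))).exists
  exact h2 h1

variable {E : Type} [NormedAddCommGroup E] [NormedSpace ℝ E] [FiniteDimensional ℝ E]
  [MeasurableSpace E] [BorelSpace E]
  {HM : Type} [TopologicalSpace HM] {I : ModelWithCorners ℝ E HM} [I.Boundaryless]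
  {M : Type} [TopologicalSpace M] [ChartedSpace HM M] [IsManifold I ∞ M]
  [MeasurableSpace M] [T2Space M] [BorelSpace M] [SecondCountableTopology M]
  {E' : Type} [NormedAddCommGroup E'] [NormedSpace ℝ E'] [FiniteDimensional ℝ E']
  [MeasurableSpace E'] [BorelSpace E']
  {HM' : Type} [TopologicalSpace HM'] {I' : ModelWithCorners ℝ E' HM'} [I'.Boundaryless]
  {M' : Type} [TopologicalSpace M'] [ChartedSpace HM' M'] [IsManifold I' ∞ M']
  [MeasurableSpace M'] [T2Space M'] [BorelSpace M'] [SecondCountableTopology M']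
  {ι : Type} [Fintype ι] {𝒟 : Type} {V : Type} [NormedAddCommGroup V] [NormedSpace ℝ V] {k : ℕ}

theorem N_N2 {F : Pre I M ι} {u : M → V} (hu : Sm I u) (hc : HasCompactSupport u) :
    N F (fun _ => 0) univ k u = ENNReal.ofReal (N2 F k u) := by
  obtain ⟨h1, h2⟩ := J_int (F := F) k (FL_of_hcs k hu hc)
  simp only [N, mul_zero, exp_zero, one_mul, Measure.restrict_univ]
  rw [← ofReal_integral_eq_lintegral_ofReal h1 (.of_forall fun _ => J_nonneg k u), h2]

theorem N_comp {F : Pre I M ι} {F' : Pre I' M' ι} {φ : OpenPartialHomeomorph M M'}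
    (h : An.Iso F F' φ) {A : Set M} (s : A ⊆ φ.source) {w : M' → V} (hw : Sm I' w) :
    N F (fun _ => 0) A k (w ∘ φ) ≤ N F' (fun _ => 0) univ k w :=
  (N_mono s).trans ((N_iso h continuous_const φ.open_source.measurableSet
    φ.open_target.measurableSet subset_rfl subset_rfl
    (fun _ hx => iff_of_true hx (φ.map_source hx)) (fun _ _ => rfl) hw).trans_le
      (N_mono (subset_univ _)))

theorem sm_cut' {χ : M → ℝ} {f : M → V} (hχ : Sm I χ) (h : ∀ x ∈ tsupport χ, SA I f x) :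
    Sm I fun y => χ y • f y := fun x => by
  by_cases hx : x ∈ tsupport χ
  · exact (hχ x).smul (h x hx)
  · exact sa_congr (f := fun _ => 0) contMDiffAt_const
      ((notMem_tsupport_iff_eventuallyEq.1 hx).mono fun y hy => by simp [hy])

theorem nb_of_N {F : 𝒟 → Fr I M ι} {l : Filter 𝒟} {u : 𝒟 → M → V} {ρ : ℝ≥0}
    (h : ∀ᶠ d in l, Sm I (u d) ∧ HasCompactSupport (u d) ∧
      N (F d).toPre (fun _ => 0) univ k (u d) ≤ ρ) : NB (N := fun _ => V) F l 1 k u :=
  ⟨ρ, ρ.2, h.mono fun _ h => ⟨zero_le_one, h.1, h.2.1, by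
    simpa using ENNReal.ofReal_le_coe.1 ((N_N2 h.1 h.2.1).ge.trans h.2.2)⟩⟩

variable {X : Cx I M ι 𝒟}

/-- Sobolev bounds give bounds on the windows of a chart -/
theorem hk_of_N {F' : 𝒟 → Pre I' M' ι} {φ : 𝒟 → OpenPartialHomeomorph M M'} {w : 𝒟 → M' → V}
    {ρ : ℝ≥0} (h : ∀ᶠ d in X.l, An.Iso (X.F d).toPre (F' d) (φ d) ∧ Sm I' (w d) ∧
      N (F' d) (fun _ => 0) univ k (w d) ≤ ρ) (hs : X.Ev fun d x => x ∈ (φ d).source) :
    X.Hk (N := fun _ => V) 1 k fun d x => w d (φ d x) := by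
  obtain ⟨L, hL, hs⟩ := hs.win
  refine ⟨L + 2, by positivity, fun R hR => ?_⟩
  obtain ⟨C, -, hC⟩ := (bk_η' (X := X) (L := L + 2 + R) R k).glob
  refine ⟨(2 * Fintype.card ι + 3) ^ k * (C * 1) ^ 2 * ρ, by positivity, ?_⟩
  filter_upwards [hC, ev_fst h, (hs (R + 2)).filter_mono (lw_mono (by linarith)), ev_fst X.sτ,
    W_vol (R := R) (by linarith), (bk_η' (X := X) (R + 2) 0).sa,
    ext_ev (R := R) (N := fun _ => V) fun d x => w d (φ d x)] with z h1 h2 h3 h4 h5 h6 h7
  have s : Sm I fun x => X.η (R + 2) z x • w z.1 (φ z.1 x) := sm_cut' (fun x => h6 x trivial)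
    fun x hx => (h2.2.1 _).comp x (iso_smAt h2.1 (h3 x (ts_η h4.1 hx)))
  have e : (fun x => X.η R z x • w z.1 (φ z.1 x)) =
      fun x => X.η R z x • X.η (R + 2) z x • w z.1 (φ z.1 x) := funext fun x => by
    by_cases hx : x ∈ X.W R z
    · rw [η_one hx (show R + 1 ≤ R + 2 by linarith), one_smul]
    · rw [η_zero hx, zero_smul, zero_smul]
  have t := (tsupport_smul_subset_left (X.η R z) fun x => X.η (R + 2) z x • w z.1 (φ z.1 x)).trans
    (ts_η h4.1)
  have c := h5.1.of_isClosed_subset (isClosed_tsupport _) t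
  have s' : Sm I fun x => X.η R z x • X.η (R + 2) z x • w z.1 (φ z.1 x) := h1.1.smul s
  rw [e]
  refine ⟨zero_le_one, s', c, (ENNReal.ofReal_le_ofReal_iff (by positivity)).1 ?_⟩
  rw [← N_N2 s' c, N_supp t, Pi.one_apply, Pi.one_apply, one_pow, mul_one,
    ENNReal.ofReal_mul (by positivity), ENNReal.ofReal_coe_nnreal]
  refine (N_smul h5.1.measurableSet h1.1 h1.2 s).trans (mul_le_mul_right ?_ _)
  rw [N_congr h5.1.measurableSet h7]
  exact (N_comp h2.1 (fun x hx => h3 x (W_mono (by linarith) hx)) h2.2.1).trans h2.2.2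

/-- **exponentially small windows give small weighted norms** -/
theorem small {a : 𝒟 → ℝ} (hp : ∀ d, X.p d = some (-a d) ∧ X.q d = some (a d)) {θ δ : ℝ}
    (h0 : 0 ≤ δ) (h1 : δ < θ) {f : 𝒟 → M → V}
    (hf : X.Hk (N := fun _ => V) (fun d t => exp (-θ * (a d - |t|))) k f) {g : 𝒟 → M → ℝ}
    (hg : ∀ᶠ d in X.l, ∀ x, |X.τ d x| ≤ a d → g d x ≤ δ * (a d - |X.τ d x|)) {η : ℝ≥0}
    (hη : 0 < η) : ∃ t, ∀ᶠ d in X.l, N (X.F d).toPre (g d) {x | |X.τ d x| ≤ a d - t} k (f d) ≤ η := by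
  obtain ⟨L, hL, hf⟩ := hf.ext
  obtain ⟨K, hK, hf⟩ := hf (L + 1) 1 le_rfl zero_le_one
  set r := exp (-(2 * (θ - δ)))
  have r0 : 0 ≤ r := (exp_pos _).le
  have r1 : r < 1 := exp_lt_one_iff.2 (by linarith)
  have lim : Tendsto (fun t => 2 * (exp (2 * δ) * K * exp (-(2 * (θ - δ)) * t) * (1 - r)⁻¹)) atTop
      (𝓝 (2 * (exp (2 * δ) * K * 0 * (1 - r)⁻¹))) :=
    (((tendsto_exp_atBot.comp (tendsto_id.const_mul_atTop_of_neg (by linarith))).const_mul
      _).mul_const _).const_mul _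
  obtain ⟨t, t1, t2⟩ := ((eventually_ge_atTop (L + 1)).and (lim.eventually_le_const
    (show _ < (η : ℝ) by simpa using hη))).exists
  refine ⟨t, ?_⟩
  filter_upwards [ev_lw.1 ((hf.and (ext_ev (R := 1) (N := fun _ => V) f)).and
    (W_vol (R := 1) (by linarith))), hg] with d hf hg
  set B := exp (2 * δ) * K * exp (-(2 * (θ - δ)) * t)
  have B0 : 0 ≤ B := by positivity
  let A : ℝ → ℕ → Set M := fun s m => {x | t + m ≤ a d ∧ x ∈ X.W 1 (d, s * (a d - t - m))}
  have hA : ∀ s, |s| = 1 → N (X.F d).toPre (g d) (⋃ m, A s m) k (f d) ≤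
      ENNReal.ofReal (B * (1 - r)⁻¹) := fun s hs => by
    refine (lintegral_iUnion_le _ _).trans ?_
    rw [← tsum_geometric_of_lt_one r0 r1, ← tsum_mul_left, ENNReal.ofReal_tsum_of_nonneg
      (fun _ => by positivity) ((summable_geometric_of_lt_one r0 r1).mul_left B)]
    refine ENNReal.tsum_le_tsum fun m => ?_
    by_cases hm : t + m ≤ a d
    swap
    · simp [A, hm]
    have m0 : (0 : ℝ) ≤ m := m.cast_nonneg
    have c : |s * (a d - t - m)| = a d - t - m := by
      rw [abs_mul, hs, one_mul, abs_of_nonneg (by linarith)]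
    obtain ⟨⟨⟨-, b1, b2, b3⟩, b4⟩, b5, -⟩ := hf (s * (a d - t - m)) ⟨fun x hx => by
      rw [(hp d).1] at hx; cases hx; linarith [neg_abs_le (s * (a d - t - m))], fun x hx => by
      rw [(hp d).2] at hx; cases hx; linarith [le_abs_self (s * (a d - t - m))]⟩
    simp only [A, hm, true_and, ofPred_mem_eq]
    refine (N_wt (g' := fun _ => 0) (c := δ * (t + m + 1)) b5.measurableSet fun x hx => ?_).trans ?_
    · have := abs_sub_abs_le_abs_sub (X.τ d x) (s * (a d - t - m))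
      have := abs_sub_abs_le_abs_sub (s * (a d - t - m)) (X.τ d x)
      have hx : |X.τ d x - s * (a d - t - m)| ≤ 1 := hx
      rw [abs_sub_comm] at this
      rw [zero_add]
      exact (hg x (by linarith)).trans (mul_le_mul_of_nonneg_left (by linarith) h0)
    rw [← N_congr b5.measurableSet b4]
    refine (mul_le_mul_right ((N_mono (subset_univ _)).trans_eq (N_N2 b1 b2)) _).trans ?_
    rw [← ENNReal.ofReal_mul (exp_pos _).le]
    refine ENNReal.ofReal_le_ofReal ((mul_le_mul_of_nonneg_left b3 (exp_pos _).le).trans_eq ?_)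
    simp only [c, B, r, ← exp_nat_mul]
    rw [mul_left_comm, mul_comm _ K, mul_assoc, mul_assoc, ← exp_add, ← exp_add, ← exp_add]
    congr 2; push_cast; ring
  refine (N_mono (B := (⋃ m, A 1 m) ∪ ⋃ m, A (-1) m) ?_).trans
    (N_union.trans ((add_le_add (hA 1 abs_one) (hA _ (by simp))).trans ?_))
  · intro x (hx : |X.τ d x| ≤ a d - t)
    have h2 := Nat.floor_le (show 0 ≤ a d - t - |X.τ d x| by linarith)
    have h3 := Nat.lt_floor_add_one (a d - t - |X.τ d x|)
    have h4 := abs_nonneg (X.τ d x)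
    rcases le_total 0 (X.τ d x) with e | e
    · refine .inl (mem_iUnion.2 ⟨⌊a d - t - |X.τ d x|⌋₊, by linarith, ?_⟩)
      rw [abs_of_nonneg e] at *
      simp only [W, mem_ofPred_eq, abs_le]
      constructor <;> linarith
    · refine .inr (mem_iUnion.2 ⟨⌊a d - t - |X.τ d x|⌋₊, by linarith, ?_⟩)
      rw [abs_of_nonpos e] at *
      simp only [W, mem_ofPred_eq, abs_le]
      constructor <;> linarith
  · rw [← ENNReal.ofReal_add (by positivity) (by positivity), ← two_mul]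
    exact ENNReal.ofReal_le_coe.2 t2

end Crest.Agent.X212.Lcz33
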