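import Crest.Agent.X212.Rsp69.Cyc
import Crest.Agent.X212.Gla92.Cf

/-! Row 212, GL-LOCZ (helper33): the equations of two sides which are close on a band. -/

set_option autoImplicit false
set_option linter.unusedSectionVars false
set_option maxSynthPendingDepth 3
noncomputable section
open scoped Manifold ContDiff Topology InnerProductSpace
open MeasureTheory Set Function Filter Real

namespace Crest.Agent.X212.Lcz33
open An Sob92 Wz78 Dgr80 Rsp69 Rsp69.Tw Rsp69.Cx Nd18 Cyf70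
open Std94 (Kl)
open Map77 (Cf fa fp sm2 l0 σ0 i1 i2 cut)

section tw
variable {E : Type} [NormedAddCommGroup E] [NormedSpace ℝ E] [FiniteDimensional ℝ E]
  [MeasurableSpace E] [BorelSpace E]
  {HM : Type} [TopologicalSpace HM] {I : ModelWithCorners ℝ E HM} [I.Boundaryless]
  {M : Type} [TopologicalSpace M] [ChartedSpace HM M] [IsManifold I ∞ M]
  [MeasurableSpace M] [T2Space M] [BorelSpace M] [SecondCountableTopology M]
  {ι : Type} [Fintype ι] {𝒟 : Type} {lam : Type} [Fintype lam] {X : Cx I M ι 𝒟} (T : Tw X lam)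
  {k n : ℕ} {V V' : Type} [NormedAddCommGroup V] [NormedSpace ℝ V] [NormedAddCommGroup V']
  [NormedSpace ℝ V']

/-- the points of a family of pairs -/
abbrev Ix : Type := Σ d, Σ i, (T.S d i).M

/-- with one more bounded derivative -/
structure E1 (n : ℕ) (u : T.Sc fun _ => V) : Prop where
  c : T.EC n u
  d : ∀ a, T.U (N := fun _ => V) fun d i => (T.F d i).D a (u d i)

/-- close on the band -/
def elK (hn : 7 ≤ n) : Kl (Ix T) :=
  ⟨fun {N} _ _ f => T.EL (N := fun _ => N) n fun d i x => f ⟨d, i, x⟩,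
    fun _ => (EC.const (.const _)).el, EL.add, EL.app hn le_rfl⟩

/-- bounded and close on the band -/
def ecK (hn : 7 ≤ n) : Kl (Ix T) :=
  ⟨fun {N} _ _ f => T.EC (N := fun _ => N) n fun d i x => f ⟨d, i, x⟩,
    fun _ => EC.const (.const _), EC.add, EC.app hn le_rfl⟩

variable {T} {u v : T.Sc fun _ => V}

theorem E1.D (h : E1 T (n + 1) u) (a : ι) :
    T.EC (N := fun _ => V) n fun d i => (T.F d i).D a (u d i) :=
  ⟨h.c.q.mono fun _ h i => Cb_D (h i) a, h.d a, h.c.el.D a⟩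

theorem E1.of {C : ℝ} (h : ∀ᶠ d in X.l, ∀ i, (T.F d i).Cb (u d i) ∧ (T.F d i).CB 1 (u d i) C)
    (e : T.EL n u) : E1 T n u :=
  ⟨⟨h.mono fun _ h i => (h i).1, ⟨|C|, abs_nonneg _, h.mono fun _ h i =>
    CB_bound (CB_abs (h i).2)⟩, e⟩, fun a => ⟨|C|, abs_nonneg _, h.mono fun _ h i =>
      CB_bound (CB_D (CB_abs (h i).2) a)⟩⟩

theorem E1.congr (h : E1 T n u) (e : ∀ᶠ d in X.l, ∀ i, u d i = v d i) : E1 T n v :=
  ⟨h.c.congr e, fun a => (h.d a).congr (e.mono fun _ e i => by rw [e i])⟩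

theorem ec_sm (h : T.EC n u) : ∀ᶠ d in X.l, ∀ i, Sm (T.S d i).I (u d i) :=
  h.q.mono fun d h i => Cb.sm (F := (T.F d i).toPre) (h i)

theorem u_app {A : T.Sc fun _ => V →L[ℝ] V'} (h : T.U A) (h' : T.U u) :
    T.U (N := fun _ => V') fun d i x => A d i x (u d i x) :=
  h.bil (B := fun _ => .id ℝ (V →L[ℝ] V')) (.const _) h'

theorem E1.app (hn : 7 ≤ n) {A : T.Sc fun _ => V →L[ℝ] V'} (h : E1 T n A) (h' : E1 T n u) :
    E1 (V := V') T n fun d i x => A d i x (u d i x) := by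
  refine ⟨h.c.app hn le_rfl h'.c, fun a => ?_⟩
  refine ((u_app (h.d a) h'.c.u).add (u_app h.c.u (h'.d a))).congr ?_
  filter_upwards [ec_sm h.c, ec_sm h'.c] with d e e' i
  funext x
  exact (dv_app ((e i x).mdifferentiableAt (by simp)) ((e' i x).mdifferentiableAt (by simp))).symm

theorem ec_le (h : T.EC (k + 1) u) : T.EC k u := h.of_le k.le_succ

theorem el_of {hn : 7 ≤ n} {f : Ix T → V} (h : (elK T hn).mem f) :
    T.EL (N := fun _ => V) n fun d i x => f ⟨d, i, x⟩ := h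

theorem el_to (hn : 7 ≤ n) (h : T.EL n u) : (elK T hn).mem fun z => u z.1 z.2.1 z.2.2 := h

variable (T) in
/-- the same with one more bounded derivative -/
def e1K (hn : 7 ≤ n) : Kl (Ix T) :=
  ⟨fun {N} _ _ f => E1 (V := N) T n fun d i x => f ⟨d, i, x⟩,
    fun c => .of (C := ‖c‖) (.of_forall fun _ _ => ⟨Cb_const _, CB_const _ _⟩)
      (EC.const (.const _)).el,
    fun h h' => ⟨h.c.add h'.c, fun a => ((h.d a).add (h'.d a)).congr
      ((h.c.q.and h'.c.q).mono fun _ h i => (Pre.D_add _ (Cb.sm (h.1 i)) (Cb.sm (h.2 i)) a).symm)⟩,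
    E1.app hn⟩

theorem ec_dv (a : ι) : T.EC (N := fun _ => ℝ) k fun d i => (T.F d i).dv a :=
  .fixed (T.tame.mono fun _ h i => (h i).dv a) (T.rel.mono fun _ _ h =>
    ((h.2 _).1.dv (h.2 _).2.1 h.1 (h.2 _).2.2 a).symm.trans
      ((h.2 _).1.dv (h.2 _).2.1 h.1 (h.2 _).2.2 a))

theorem ec_P (a b : ι) : T.EC (N := fun _ => ℝ) k fun d i => (T.F d i).P a b :=
  .fixed (T.tame.mono fun _ h i => (h i).P a b) (T.rel.mono fun _ _ h =>
    ((h.2 _).1.P (h.2 _).2.1 a b).symm.trans ((h.2 _).1.P (h.2 _).2.1 a b))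

/-- the adjoint of an operator of order one -/
theorem el_adj {V W : Type} [NormedAddCommGroup V] [InnerProductSpace ℝ V] [NormedAddCommGroup W]
    [InnerProductSpace ℝ W] [FiniteDimensional ℝ V] [FiniteDimensional ℝ W] (hk : 7 ≤ k)
    {p : T.Sc fun _ => V →L[ℝ] V} {q : T.Sc fun _ => W →L[ℝ] W} {σ : ι → T.Sc fun _ => V →L[ℝ] W}
    {b : T.Sc fun _ => V →L[ℝ] W} (hp : T.EL (k + 1) p) (hq : T.EL (k + 1) q)
    (hσ : ∀ a, T.EL (k + 1) (σ a)) (hb : T.EL k b) {u : T.Sc fun _ => W} (hu : T.EL (k + 1) u) :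
    T.EL (N := fun _ => V) k fun d i => ((cut (T.F d i).toPre (p d i) (q d i) (fun a => σ a d i)
      (b d i)).adj (T.F d i)).app (T.F d i) (u d i) := by
  have f : ∀ {A : Type} [NormedAddCommGroup A] [NormedSpace ℝ A] {f : T.Sc fun _ => A},
      T.EL (k + 1) f → (elK T hk).mem fun z => f z.1 z.2.1 z.2.2 := fun h => h.of_le k.le_succ
  have g : ∀ {A : Type} [NormedAddCommGroup A] [NormedSpace ℝ A] {f : T.Sc fun _ => A},
      T.EL (k + 1) f → ∀ a, (elK T hk).mem fun z => (T.F z.1 z.2.1).D a (f z.1 z.2.1) z.2.2 :=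
    fun h a => h.D a
  have s1 : ∀ a, T.EL (N := fun _ => W →L[ℝ] V) (k + 1) fun d i x =>
      Ell97.trL V W (q d i x ∘L σ a d i x ∘L p d i x) := fun a =>
    Kl.clm (K := elK T (hk.trans k.le_succ)) _ (Kl.comp (f := fun z : Ix T => q z.1 z.2.1 z.2.2) hq
      (Kl.comp (f := fun z : Ix T => σ a z.1 z.2.1 z.2.2) (g := fun z => p z.1 z.2.1 z.2.2) (hσ a) hp))
  have b0 : (elK T hk).mem fun z => b z.1 z.2.1 z.2.2 := hb
  have d0 : ∀ a, (elK T hk).mem fun z => (T.F z.1 z.2.1).dv a z.2.2 := fun a => (ec_dv a).el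
  have b1 := Kl.comp (f hp) (Kl.sub (Kl.clm (Ell97.trL V W) (Kl.comp (f hq) ((elK T hk).add b0
    (Kl.fsum Finset.univ fun a => Kl.comp (f (hσ a)) (g hp a)))))
    (Kl.fsum Finset.univ fun a => (elK T hk).add (g (s1 a) a) (Kl.smul (d0 a) (f (s1 a)))))
  exact (el_of ((elK T hk).add (Kl.fsum Finset.univ fun a => (elK T hk).app (Kl.neg (f (s1 a)))
    (g hu a)) ((elK T hk).app b1 (f hu)))).congr' fun _ _ _ => rfl

variable {N : ℕ} {κ : T.CF N}

theorem ec_Fg (hk : 7 ≤ k) (W : ∀ a, E1 T (k + 1) fun d i => κ.W d i a)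
    (pg : T.EC (N := fun _ => En (Fin N × Fin N)) k fun d i => (κ.m d i).pg) (s : ι × ι) :
    T.EC (N := κ.SA) k fun d i x => (κ.m d i).Fg (T.F d i) (κ.W d i) x s :=
  have w := fun a => ec_le (W a).c
  have m := fun a b => (w a).bil hk le_rfl (B := fun _ => ContinuousLinearMap.mul ℝ _) (.const _) (w b)
  pg.app hk le_rfl (EC.clm (L := fun _ => hsL) (.const _)
    ((((((W _).D _).sub ((W _).D _)).add ((m s.1 s.2).sub (m s.2 s.1))).sub
      (.sum _ fun l _ => (EC.c _ _ l).smul hk le_rfl (w l)))))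

theorem ok1 (hk : 7 ≤ k) (Z : ∀ d i, Set (T.S d i).M)
    (gd : ∀ᶠ d in X.l, ∀ i, Gd (T.S d i).B (T.S d i).G (κ.c d i)) (J : Ub X.l fun d => ‖κ.J d‖)
    (W : ∀ a, E1 T (k + 1) fun d i => κ.W d i a) (Φ : T.EC (k + 1) κ.Φ)
    (ρ : ∀ a, T.EC (k + 1) fun d i => κ.ρ d i a) (j : T.EC (k + 1) κ.j)
    (pg : T.EC (N := fun _ => En (Fin N × Fin N)) (k + 1) fun d i => (κ.m d i).pg) :
    κ.OK Z (k + 1) := by
  refine ⟨by omega, gd, J, fun a => (W a).c.el, Φ, ρ, j, pg, fun φ hφ _ => ?_⟩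
  have e : T.Eng (V := κ.SA) (fun d i => (T.F d i).Cb) (k + 1) κ.A :=
    ⟨by omega, fun a => (W a).c.el.clm (L := fun _ => adcL) (.const _),
      gd.mono fun _ h i => cls_cb (h i).pp.toOk⟩
  have u : T.U (κ.fg φ) := (EC.sum Finset.univ fun s _ => (ec_le (hφ s)).smul hk le_rfl
    (ec_Fg hk W (ec_le pg) s)).u
  exact ⟨(e.resU u).hk (.of_forall fun _ _ => Mp86.sm_res _ _ _), e.resU (e.resU u)⟩

end tw

variable {E3 : Type} [NormedAddCommGroup E3] [NormedSpace ℝ E3] [FiniteDimensional ℝ E3]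
  [MeasurableSpace E3] [BorelSpace E3]
  {H3 : Type} [TopologicalSpace H3] {I3 : ModelWithCorners ℝ E3 H3} [I3.Boundaryless]
  {Y : Type} [TopologicalSpace Y] [ChartedSpace H3 Y] [IsManifold I3 ∞ Y] [T2Space Y]
  [MeasurableSpace Y] [BorelSpace Y] [SecondCountableTopology Y] [CompactSpace Y]
  {κ : Type} [Fintype κ] {lam : Type} [Fintype lam] {D : YD I3 Y κ lam} {𝒟 : Type}
  {P : NP D 𝒟} {n₀ k n : ℕ} {c : P.tw.CF n₀} {N : ND Y lam}

theorem nh1 (hk : 7 ≤ k) (o : c.OK (fun d i => (P.K d i).dp 1) (k + 1)) (nd : N.OK D)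
    (γ : P.γ ≤ 2 * N.δ) (p : P.tw.EL (k + 1) c.p) (W : ∀ a, P.tw.EC k fun d i => c.W d i a)
    (Φ : E1 P.tw (k + 1) c.Φ) : NP.NH c N (k + 1) := by
  have χ := P.cut (k := k) (c := 4) (by norm_num)
  have h1 : P.tw.EC (N := c.SV) k fun d i x => (P.K d i).χ4 x •
      nt (P.tw.F d i) (c.W d i) (P.K d i).τ (c.Φ d i) x :=
    χ.smul hk le_rfl (EC.sum Finset.univ fun a _ => (P.dτ a).smul hk le_rfl
      ((Φ.D a).add ((W a).app hk le_rfl (ec_le Φ.c))))
  have h2 := χ.mul hk (h1.inner hk h1)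
  simp only [real_inner_self_eq_norm_sq] at h2
  exact ⟨o, nd, γ, p, .of_EC nd.δ0 h2 fun d i x hx => mul_eq_zero_of_left
    (ct_zero fun e => hx (Dp_mono (by norm_num) e)) _⟩

variable (h : NP.NH c N (k + 1)) {q : 𝒟 → YW I3 Y →₀ ℝ} {s : Finset (YW I3 Y)}
  (hq : ∀ d, ∀ w ∉ s, q d w = 0) (hq' : ∀ w, Ub P.l fun d => ‖q d w‖)
include h

theorem el_eD0 : P.tw.EL (N := c.SV) k fun d i =>
    dir (P.S d i).I (P.tw.F d i).e (c.ρ d i) (c.W d i) (c.Φ d i) :=
  .sum _ fun a _ => (h.o.ρ a).el.app h.h7 k.le_succ (h.o.Φ.el.nab h.h7 k.le_succ h.o.W a)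

theorem el_p2 {u : P.tw.Sc c.S2} (hu : P.tw.EL k u) :
    P.tw.EL (N := c.S2) k fun d i x => (c.m d i).p2 (P.S d i).B x (u d i x) :=
  have e := EL.toLp (P := HS (Fin n₀)) fun s => EL.sum Finset.univ fun t _ =>
    (h.sd s t).smul h.h7 k.le_succ (h.o.pg.el.app h.h7 k.le_succ
      (hu.clm (L := fun _ => PiLp.proj 2 (fun _ => HS (Fin n₀)) t) (.const _)))
  e.congr' fun _ _ _ => PiLp.ext fun _ => (Wz78.idx_apply ..).symm

theorem el_eC0 : P.tw.EL (N := c.S2) k fun d i x =>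
    (c.m d i).p2 (P.S d i).B x ((c.m d i).Fg (P.tw.F d i) (c.W d i) x) -
      (c.m d i).mu (P.S d i).B x (c.Φ d i x) (c.Φ d i x) :=
  have Φ := h.o.Φ.el
  have r := fun a {u : P.tw.Sc c.SV} (hu : P.tw.EL (k + 1) u) =>
    (h.o.ρ a).el.app (N := c.SV) (N' := c.SV) h.h7 le_rfl hu
  (el_p2 h (EL.toLp fun s => h.o.Fg le_rfl s)).sub (el_p2 h (EL.toLp fun s : Option κ × Option κ =>
    (h.o.pg.el.app (N := c.SA) (N' := c.SA) h.h7 le_rfl (Φ.bil h.h7 le_rfl
      (B := fun _ => rkL (Fin n₀)) (.const _) (r s.1 (r s.2 Φ)))).of_le k.le_succ))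

include hq hq'

omit h in
theorem el_fsum {V : Type} [NormedAddCommGroup V] [NormedSpace ℝ V] (hk : 7 ≤ n)
    {u : YW I3 Y → P.tw.Sc fun _ => V} (hu : ∀ w, P.tw.EL n (u w)) :
    P.tw.EL (N := fun _ => V) n fun d i x => (q d).sum fun w a => a • u w d i x :=
  (EL.sum s fun w _ => (EC.const (c := fun d => q d w) (hq' w)).el.smul hk le_rfl (hu w)).congr'
    fun d i x => (Finsupp.sum_of_support_subset _ (fun w hw => by_contra fun e =>
      Finsupp.mem_support_iff.1 hw (hq d w e)) (fun w a => a • u w d i x)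
      fun _ _ => zero_smul _ _).symm

/-- **the Dirac equation** -/
theorem el_eD : P.tw.EL (N := c.SV) k fun d i =>
    (c.c d i).eD (P.S d i).G (N.pt (n := n) (P.K d i) (q d)) :=
  (el_eD0 h).sub (((h.q1D (n := n) (NP.nc h.o)).add
    (el_fsum hq hq' h.h7 fun w => h.q2D (n := n) w.2)).of_le k.le_succ)

/-- **the curvature equation** -/
theorem el_eC : P.tw.EL (N := c.S2) k fun d i =>
    (c.c d i).eC (P.S d i).B (P.S d i).G (N.pt (n := n) (P.K d i) (q d)) :=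
  (el_eC0 h).sub (((h.q1C (n := n) (NP.nc h.o)).add
    (el_fsum hq hq' h.h7 fun w => h.q2C (n := n) w.2)).of_le k.le_succ)

end Crest.Agent.X212.Lcz33
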