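import Crest.Agent.X212.Lcz33.Pr

/-! Row 212, GL-LOCZ (helper33): the gauge row and the sides. -/

set_option autoImplicit false
set_option linter.unusedSectionVars false
set_option maxSynthPendingDepth 3
noncomputable section
open scoped Manifold ContDiff Topology InnerProductSpace
open MeasureTheory Set Function Filter Real

namespace Crest.Agent.X212.Lcz33
open An Sob92 Wz78 Dgr80 Rsp69 Rsp69.Tw Rsp69.Cx Nd18 Cyf70
open Std94 (Kl)
open Map77 (P2 Cf fa fp sm2 l0 σ0 i1 i2 cut)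

variable {E : Type} [NormedAddCommGroup E] [NormedSpace ℝ E] [FiniteDimensional ℝ E]
  [MeasurableSpace E] [BorelSpace E]
  {HM : Type} [TopologicalSpace HM] {I : ModelWithCorners ℝ E HM} [I.Boundaryless]
  {M : Type} [TopologicalSpace M] [ChartedSpace HM M] [IsManifold I ∞ M]
  [MeasurableSpace M] [T2Space M] [BorelSpace M] [SecondCountableTopology M]
  {ι : Type} [Fintype ι] {𝒟 : Type} {lam : Type} [Fintype lam] {X : Cx I M ι 𝒟} {T : Tw X lam}
  {k n : ℕ} {V V' : Type} [NormedAddCommGroup V] [NormedSpace ℝ V] [NormedAddCommGroup V']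
  [NormedSpace ℝ V']


theorem el_sm2 (hn : 7 ≤ n) {Y Z : Type} [NormedAddCommGroup Y] [InnerProductSpace ℝ Y]
    [NormedAddCommGroup Z] [InnerProductSpace ℝ Z] {f : T.Sc fun _ => CL Y Y}
    {g : T.Sc fun _ => CL Z Z} (h : T.EL n f) (h' : T.EL n g) :
    T.EL (N := fun _ => CL (P2 Y Z) (P2 Y Z)) n fun d i x => sm2 (f d i x) (g d i x) :=
  el_of (Gla92.kl_sm2 (el_to hn h) (el_to hn h'))

theorem el_idx (hn : 7 ≤ n) {α Y : Type} [Fintype α] [NormedAddCommGroup Y] [InnerProductSpace ℝ Y]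
    {S : α → α → T.Fn} {f : T.Sc fun _ => CL Y Y} (h : ∀ a b, T.EL n (S a b)) (h' : T.EL n f) :
    T.EL (N := fun _ => CL (Fm α Y) (Fm α Y)) n fun d i x => idx (fun a b => S a b d i x) (f d i x) :=
  el_of (Kl.idx (fun a b => el_to hn (h a b)) (el_to hn h'))

variable {κ : Type} [Fintype κ] [DecidableEq κ]

theorem el_σ0 (hn : 7 ≤ n) {P : ι → ι → T.Fn} (h : ∀ a b, T.EL n (P a b)) (a : ι) :
    T.EL (N := fun _ => CL (HS κ) (Cf ι κ)) n fun d i x => σ0 (fun a b => P a b d i x) a := by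
  have e := el_of (Kl.neg (Kl.comp ((elK T hn).const (i1 _ (Eu κ))) (Gla92.kl_tp fun b =>
    Kl.smul (el_to hn (h b a)) ((elK T hn).const (ContinuousLinearMap.id ℝ (HS κ))))))
  simp only [σ0, Map77.ea]
  exact e

theorem el_base {W : ι → T.Sc fun _ => En κ} {Φ : T.Sc fun _ => Eu κ} (hW : ∀ a, T.EL k (W a))
    (hΦ : T.EL k Φ) : T.EL (N := fun _ => Cf ι κ) k fun d i => Map77.base (fun a => W a d i) (Φ d i) := by
  have e1 := EL.toLp (P := HS κ) fun a => (hW a).clm (L := fun _ => hsL) (.const _)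
  have e2 := e1.clm (L := fun _ => i1 (Fm ι (HS κ)) (Eu κ)) (.const _)
  have e3 := hΦ.clm (L := fun _ => i2 (Fm ι (HS κ)) (Eu κ)) (.const _)
  exact (e2.add e3).congr' fun _ _ _ => by rw [Map77.base]

theorem el_d0 (hk : 7 ≤ k) {b : ∀ d i, Map77.Bd (T.S d i).M ι κ}
    (hP : ∀ a a', T.EL (N := fun _ => ℝ) (k + 1) fun d i => (b d i).P a a')
    (hg : T.EL (N := fun _ => CL (HS κ) (HS κ)) (k + 1) fun d i => (b d i).g)
    (h1 : T.EL (N := fun _ => CL (Fm ι (HS κ)) (Fm ι (HS κ))) (k + 1) fun d i => (b d i).p1)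
    (hs : T.EL (N := fun _ => CL (Eu κ) (Eu κ)) (k + 1) fun d i => (b d i).sp)
    {u₀ u : T.Sc fun _ => Cf ι κ} (h0 : T.EL k u₀) (hu : T.EL (k + 1) u) :
    T.EL (N := fun _ => HS κ) k fun d i =>
      (((b d i).d0 (T.F d i) (u₀ d i)).adj (T.F d i)).app (T.F d i) (u d i) :=
  have h7 := hk.trans k.le_succ
  el_adj hk hg (el_sm2 h7 h1 hs) (el_σ0 h7 hP) (h0.clm (L := fun _ => l0) (.const _)) hu

end Crest.Agent.X212.Lcz33
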