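import Crest.Agent.X212.Nd18.Term

/-! Row 212, GL-LOCZ (helper33): the neck terms do not see `z`. -/

set_option autoImplicit false
set_option linter.unusedSectionVars false
noncomputable section
open scoped Manifold ContDiff Topology InnerProductSpace
open MeasureTheory Set Function Filter

namespace Crest.Agent.X212.Lcz33
open An Dgr80 Nd18 Cyf70
open Cyc79 (Cy bf gh)

variable {E3 : Type} [NormedAddCommGroup E3] [NormedSpace ℝ E3] [FiniteDimensional ℝ E3]
  [MeasurableSpace E3] [BorelSpace E3]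
  {H3 : Type} [TopologicalSpace H3] {I3 : ModelWithCorners ℝ E3 H3} [I3.Boundaryless]
  {Y : Type} [TopologicalSpace Y] [ChartedSpace H3 Y] [IsManifold I3 ∞ Y] [T2Space Y]
  [MeasurableSpace Y] [BorelSpace Y] [SecondCountableTopology Y] [CompactSpace Y]
  {κ : Type} [Fintype κ] {lam : Type} [Fintype lam]
  {E : Type} [NormedAddCommGroup E] [NormedSpace ℝ E] [FiniteDimensional ℝ E]
  [MeasurableSpace E] [BorelSpace E]
  {HM : Type} [TopologicalSpace HM] {I : ModelWithCorners ℝ E HM} [I.Boundaryless]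
  {M : Type} [TopologicalSpace M] [ChartedSpace HM M] [IsManifold I ∞ M]
  [MeasurableSpace M] [BorelSpace M] [T2Space M] [SecondCountableTopology M]
  {D : YD I3 Y κ lam} {B : Base M (Option κ) lam} {G : Geo I M (Option κ) lam}
  {r n : ℕ} (N : ND Y lam) (K : Nk D B G) (c : Cfg M (Option κ) lam r)
  (z : EuclideanSpace ℂ (Fin r))

/-- the configuration with another `z` -/
abbrev wz : Cfg M (Option κ) lam r := ⟨c.m, c.W, c.Φ, z⟩

section z
variable (F : Fr I M (Option κ))

theorem lt_z : (wz c z).lt F = c.lt F := funext fun t => by cases t <;> rfl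
theorem la_z : (wz c z).la F = c.la F := funext fun t => by cases t <;> rfl
theorem ltS_z : ltS F (wz c z) = ltS F c := funext fun t => by cases t <;> rfl
theorem laS_z : laS (wz c z) = laS c := funext fun t => by cases t <;> rfl
theorem pk_z : pk (wz c z) = pk c := funext fun t => by cases t <;> rfl
theorem nw_z : nw F (wz c z) = nw F c := funext fun u => by unfold nw; rw [lt_z]; rfl
theorem sw_z : (wz c z).sw F = c.sw F := funext fun u => by unfold Cfg.sw; rw [lt_z]
theorem swA_z : swA F (wz c z) = swA F c := by funext u l; unfold swA; rw [ltS_z]; rfl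
theorem swP_z : swP F (wz c z) = swP F c := by funext u l; unfold swP; rw [ltS_z]; rfl
theorem bf_z : bf F (wz c z) = bf F c := by funext f f'; unfold bf; rw [la_z]
theorem gh_z : gh F (wz c z) = gh F c := by funext f f' w w' l x; unfold gh; rw [bf_z]; rfl

theorem aw_z : (wz c z).aw F = c.aw F := funext fun ⟨s, l⟩ => by
  cases s <;> simp only [Cfg.aw, Cfg.sd, la_z, sw_z]

/-- seeds which do not see `z` -/
def SZ (S : Sed M (Option κ) lam r) : Prop :=
  S.s (wz c z) = S.s c ∧ S.sA (wz c z) = S.sA c ∧ S.sP (wz c z) = S.sP c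

theorem sz_cy (d : Cy M) (w : List (La M)) : SZ c z ((d.sed F).wd F w) := by
  have h : SZ c z (d.sed F) := ⟨by funext x; simp only [Cy.sed, Cy.al, Cy.be, bf_z]; rfl,
    by funext l x; simp only [Cy.sed, gh_z]; rfl, rfl⟩
  exact ⟨by simp only [Sed.wd, la_z, h.1], by funext l x; simp only [Sed.wd, laS_z, h.1, h.2.1],
    by funext l; simp only [Sed.wd, laS_z, h.2.2]⟩

end z

theorem dg_z (j : N.J) : ((N.dg K).d j).h (wz c z) = ((N.dg K).d j).h c ∧
    ((N.dg K).d j).gA (wz c z) = ((N.dg K).d j).gA c ∧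
    ((N.dg K).d j).gP (wz c z) = ((N.dg K).d j).gP c := by
  rcases j with j | j | j
  · simp only [ND.dg, Sum.elim_inl]
    cases N.d0 j with
    | sw u v => simp only [Nk.den, dcut, Den.sw, pk_z, nw_z, swA_z, swP_z, and_self]
    | cy d w d' w' =>
      have a := sz_cy c z G.F (K.cyc d) (w.map K.la)
      have b := sz_cy c z G.F (K.cyc d') (w'.map K.la)
      simp only [Nk.den, dcut, Den.sed, a.1, b.1, a.2.1, b.2.1, a.2.2, b.2.2, and_self]
  all_goals simp only [ND.dg, Sum.elim_inl, Sum.elim_inr, Nk.dre, Nk.dim, dcut, Den.sw, pk_z, nw_z,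
    swA_z, swP_z, and_self]

theorem q1_z : (N.q1 K : Pt _ _ _ r n).D (wz c z) = (N.q1 K : Pt _ _ _ r n).D c ∧
    (N.q1 K : Pt _ _ _ r n).C (wz c z) = (N.q1 K : Pt _ _ _ r n).C c := by
  have e : (N.dg K).Iv G.F (wz c z) = (N.dg K).Iv G.F c :=
    funext fun t => funext fun j => congrArg (wn _ _ _ · t) (dg_z N K c z j).1
  have b : ∀ j, (N.dg K).β G.F (wz c z) j = (N.dg K).β G.F c j := fun j => by
    unfold DG.β DG.co; rw [e]
  have g : (N.dg K).gA G.F (wz c z) = (N.dg K).gA G.F c := funext fun x => by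
    simp only [DG.gA, b, (dg_z N K c z _).2.1]
  have g' : (N.dg K).gP G.F (wz c z) = (N.dg K).gP G.F c := funext fun x => by
    simp only [DG.gP, b, (dg_z N K c z _).2.2]
  simp only [ND.q1, DG.q1, g, g', and_self]

theorem q2_z (T : YT Y) : (N.q2 K T : Pt _ _ _ r n).D (wz c z) = (N.q2 K T : Pt _ _ _ r n).D c ∧
    (N.q2 K T : Pt _ _ _ r n).C (wz c z) = (N.q2 K T : Pt _ _ _ r n).C c := by
  have l1 : ∀ u : List (YL Y ⊕ YTC), (u.map (N.tl K)).map (tl G.F K.τ N.δ (wz c z)) =
      (u.map (N.tl K)).map (tl G.F K.τ N.δ c) := fun u => by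
    rw [List.map_map, List.map_map]
    exact List.map_congr_left fun t _ => by cases t <;> rfl
  have l2 : ∀ u : List (La Y ⊕ YTC), (u.map (N.ta K)).map (ta G.F K.τ N.δ (wz c z)) =
      (u.map (N.ta K)).map (ta G.F K.τ N.δ c) := fun u => by
    rw [List.map_map, List.map_map]
    exact List.map_congr_left fun t _ => by cases t <;> rfl
  have o : N.oc K T (wz c z) = N.oc K T c := rfl
  cases T <;> simp only [ND.q2, ND.tm, TT.tm, l1, l2, o, Cfg.tD, Cfg.tC, sw_z, aw_z, and_self]

theorem pt_z (q : YW I3 Y →₀ ℝ) : (N.pt K q : Pt _ _ _ r n).D (wz c z) = (N.pt K q : Pt _ _ _ r n).D c ∧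
    (N.pt K q : Pt _ _ _ r n).C (wz c z) = (N.pt K q : Pt _ _ _ r n).C c := by
  simp only [ND.pt, Pt.add, fsum, (q1_z N K c z).1, (q1_z N K c z).2, (q2_z N K c z _).1,
    (q2_z N K c z _).2, and_self]

end Crest.Agent.X212.Lcz33
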