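import Crest.Agent.X212.Lcz33.Row
import Crest.Agent.X212.Lcz33.Z

/-! Row 212, GL-LOCZ (helper33): pairs of sides. -/

set_option autoImplicit false
set_option linter.unusedSectionVars false
set_option maxSynthPendingDepth 3
noncomputable section
open scoped Manifold ContDiff Topology InnerProductSpace
open MeasureTheory Set Function Filter Real

namespace Crest.Agent.X212.Lcz33
open An Sob92 Wz78 Dgr80 Rsp69 Rsp69.Tw Rsp69.Cx Nd18 Cyf70
open Std94 (Kl)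
open Map77 (Cf fa fp sm2 l0 σ0 i1 i2 cut)

open Gl67 (Sid Cm PP)

variable {E3 : Type} [NormedAddCommGroup E3] [NormedSpace ℝ E3] [FiniteDimensional ℝ E3]
  [MeasurableSpace E3] [BorelSpace E3]
  {H3 : Type} [TopologicalSpace H3] {I3 : ModelWithCorners ℝ E3 H3} [I3.Boundaryless]
  {Y : Type} [TopologicalSpace Y] [ChartedSpace H3 Y] [IsManifold I3 ∞ Y] [T2Space Y]
  [MeasurableSpace Y] [BorelSpace Y] [SecondCountableTopology Y] [CompactSpace Y]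
  {κ : Type} [Fintype κ] {lam : Type} [Fintype lam] {D : YD I3 Y κ lam} {𝒟 : Type}
  {T U Up R h : Type} [NormedAddCommGroup T] [NormedSpace ℝ T] [NormedAddCommGroup U]
  [NormedSpace ℝ U] [NormedAddCommGroup Up] [NormedSpace ℝ Up] [NormedAddCommGroup R]
  [NormedSpace ℝ R] [Fintype h] {N r n k : ℕ} {Jc : En (Fin N)} {P : NP D 𝒟}
  {𝔉 : ∀ d i, Mod61.Fam (P.S d i).I (P.S d i).M (Option κ) lam T}
  (s : ∀ d i, Sid (𝔉 d i) N Jc U Up R) (c : Cm N r h R)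
  (w : P.tw.Sc fun _ => Cf (Option κ) (Fin N)) (q : 𝒟 → PP T U r h N)

/-- two sides which are close on the band -/
structure SP (k : ℕ) : Prop where
  hk : 7 ≤ k
  hB : ∀ d i, (𝔉 d i).B = (P.S d i).B
  hG : ∀ d i, (𝔉 d i).G (q d).1 = (P.S d i).G
  ok : ∀ᶠ d in P.l, ∀ i, (s d i).OK ∧ (q d).1 ∈ (𝔉 d i).Q ∧ w d i ∈ Sec (P.S d i).I (s d i).bd.pC
  z : r = 0 ∨ ‖c.z0‖ = 1
  S : ∀ a b, E1 P.tw (k + 1) fun d i x => (𝔉 d i).S (q d).1 x a b
  cf : ∀ a b l, E1 P.tw (k + 1) fun d i x => (𝔉 d i).cf (q d).1 x a b l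
  la : ∀ a, E1 P.tw (k + 1) fun d i x => (𝔉 d i).la (q d).1 x a
  A0 : ∀ a, E1 P.tw (k + 1) fun d i => (s d i).A0 a
  Φ0 : E1 P.tw (k + 1) fun d i => (s d i).Φ0
  p : E1 P.tw (k + 1) fun d i => (s d i).p
  ρ : ∀ a, E1 P.tw (k + 1) fun d i => (s d i).ρ a
  j : E1 P.tw (k + 1) fun d i => (s d i).j
  b : E1 P.tw (k + 1) fun d i x => (s d i).b x (q d).2.1
  dr : ∀ a, P.tw.EL (N := fun _ => ℝ) k fun d i => (s d i).dr a
  w : E1 P.tw (k + 1) w

/-- the configurations -/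
def kf : P.tw.CF N :=
  ⟨fun _ _ => r, fun _ => Jc, fun d i => (s d i).p, fun d i => (s d i).ρ, fun d i => (s d i).j,
    fun d i => ((s d i).cfg c (w d i) (q d)).W, fun d i => (s d i).Φ0 + fun x => fp (w d i x),
    fun _ _ => c.z0⟩

theorem e1_of {V : Type} [NormedAddCommGroup V] [NormedSpace ℝ V] {hn : 7 ≤ n} {f : Ix P.tw → V}
    (h : (e1K P.tw hn).mem f) : E1 (V := V) P.tw n fun d i x => f ⟨d, i, x⟩ := h

theorem e1_to {V : Type} [NormedAddCommGroup V] [NormedSpace ℝ V] (hn : 7 ≤ n)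
    {u : P.tw.Sc fun _ => V} (h : E1 P.tw n u) : (e1K P.tw hn).mem fun z => u z.1 z.2.1 z.2.2 := h

namespace SP
variable {s c w q} (H : SP s c w q k)
include H

theorem h7 : 7 ≤ k + 1 := H.hk.trans k.le_succ

theorem W0 (a : Option κ) : E1 (V := En (Fin N)) P.tw (k + 1) fun d i =>
    (𝔉 d i).W0 (s d i).md (s d i).A0 (q d).1 a := by
  have t := fun {V : Type} [NormedAddCommGroup V] [NormedSpace ℝ V] {u : P.tw.Sc fun _ => V} =>
    e1_to (u := u) H.h7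
  have e := e1_of ((e1K P.tw H.h7).add ((e1K P.tw H.h7).add
    (Kl.fsum Finset.univ fun b => Kl.smul (t (H.S a b)) (t (H.A0 b)))
    (Kl.fsum Finset.univ fun b => Kl.fsum Finset.univ fun l => Kl.smul (t (H.cf a b l))
      (Kl.mulL (t (H.ρ b)) (t (H.ρ l)))))
    (Kl.smul (t (H.la a)) (Kl.mulL ((e1K P.tw H.h7).const Jc) (t H.p))))
  exact e.congr (.of_forall fun _ _ => funext fun _ => by rw [Mod61.Fam.W0])

theorem W (a : Option κ) : E1 P.tw (k + 1) fun d i => (kf s c w q).W d i a := by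
  have t := fun {V : Type} [NormedAddCommGroup V] [NormedSpace ℝ V] {u : P.tw.Sc fun _ => V} =>
    e1_to (u := u) H.h7
  have e := e1_of ((e1K P.tw H.h7).add (t (H.W0 a)) (Kl.clm (opL (κ := Fin N))
    (Kl.fsum Finset.univ fun b => Kl.smul (t (H.S a b)) (Kl.clm (Map77.pj (HS (Fin N)) b)
      ((e1K P.tw H.h7).add (Kl.clm fa (t H.w)) (t H.b))))))
  refine e.congr (.of_forall fun d i => funext fun x => ?_)
  simp only [kf, Sid.cfg, Md.addC, Wz78.idx_apply]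
  rfl

theorem Φ : E1 P.tw (k + 1) (kf s c w q).Φ :=
  e1_of ((e1K P.tw H.h7).add (e1_to H.h7 H.Φ0) (Kl.clm fp (e1_to H.h7 H.w)))

theorem pg : E1 (V := CL (HS (Fin N)) (HS (Fin N))) P.tw (k + 1) fun d i => (s d i).md.pg :=
  (e1_of (Kl.pgF ((e1K P.tw H.h7).const Jc) (fun a => e1_to H.h7 (H.ρ a)) (e1_to H.h7 H.j))).congr
    (H.ok.mono fun _ h i => funext fun x =>
      (Std94.pg_eq (h i).1.fam.B (Std94.pmx (h i).1.ok x)).symm)

theorem gd : ∀ᶠ d in P.l, ∀ i, Gd (P.S d i).B (P.S d i).G ((kf s c w q).c d i) := by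
  filter_upwards [H.ok, P.tame, eventually_all.2 fun a => (H.W a).c.q, H.Φ.c.q, H.p.c.q,
    eventually_all.2 fun a => (H.ρ a).c.q, H.j.c.q, H.pg.c.q] with d o t hW hΦ hp hρ hj hg i
  obtain ⟨o, hq, hw⟩ := o i
  have c1 := Gla92.conn_cfg o c ⟨_, hw⟩ hq
  have c2 := o.fam.G _ hq
  have c3 := o.fam.B
  have c4 := o.ok
  have c5 : ∀ x, (s d i).md.pp (𝔉 d i).B x ((s d i).Φ0 x + fp (w d i x)) = _ := fun x => by
    rw [map_add, o.pos, Gla92.fp_mem o ⟨_, hw⟩]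
  rw [H.hB, H.hG] at *
  exact ⟨⟨c3, c2, c4, c1, ⟨_, (t i).2⟩, fun a => hW a i, hg i⟩,
    ⟨c4, c1, Cb.sm (hΦ i), c5, H.z⟩, hΦ i, hp i, fun a => hρ a i, hj i⟩

variable {Nd : ND Y lam} (nd : Nd.OK D) (γ : P.γ ≤ 2 * Nd.δ)
include nd γ

theorem nh : NP.NH (kf s c w q) Nd (k + 1) :=
  nh1 H.hk (ok1 H.hk _ H.gd (.const ‖Jc‖) H.W H.Φ.c (fun a => (H.ρ a).c) H.j.c H.pg.c) nd γ H.p.c.el
    (fun a => ec_le (H.W a).c) H.Φ

theorem row : P.tw.EL (N := fun _ => HS (Fin N)) k fun d i => (s d i).row (q d).1 (w d i) := by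
  have h := H.nh nd γ
  have p : ∀ a b, P.tw.EL (N := fun _ => ℝ) (k + 1) fun d i => (𝔉 d i).B.P a b := fun a b =>
    (ec_P (T := P.tw) a b).el.congr (H.gd.mono fun d e i => by rw [H.hB, ← (e i).hG.P])
  have g : P.tw.EL (N := fun _ => CL (HS (Fin N)) (HS (Fin N))) (k + 1) fun d i => (s d i).Pg :=
    H.pg.c.el.congr (H.ok.mono fun _ e i => (Gla92.Pg_eq (e i).1).symm)
  have pp : P.tw.EL (N := fun _ => CL (Eu (Fin N)) (Eu (Fin N))) (k + 1) fun d i => (s d i).Pp :=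
    h.pp.congr (H.ok.mono fun d e i => by rw [Gla92.Pp_eq (e i).1, H.hB]; rfl)
  have a1 := el_d0 H.hk (b := fun d i => (s d i).bd) p g (el_idx H.h7 p g) pp
    (el_base (fun a => (ec_le (H.W0 a).c).el) (ec_le H.Φ0.c).el)
    ((el_sm2 H.h7 (el_idx H.h7 (fun a b => (H.S a b).c.el)
      (EC.const (c := fun _ => .id ℝ (HS (Fin N))) (.const _)).el)
      (EC.const (c := fun _ => .id ℝ (Eu (Fin N))) (.const _)).el).app H.h7 le_rfl H.w.c.el)
  have a2 := EL.sum Finset.univ fun a _ => (H.dr a).smul H.hk le_rfl (g.app H.h7 k.le_succ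
    ((ec_le H.w.c).el.clm (L := fun _ => Map77.pj _ a ∘L fa) (.const _)))
  refine (a1.add a2).congr' fun d i x => ?_
  rw [Sid.row, H.hG]
  rfl

variable {β : 𝒟 → YW I3 Y →₀ ℝ} {σ : Finset (YW I3 Y)} (hq : ∀ d, ∀ w ∉ σ, β d w = 0)
  (hq' : ∀ w, Ub P.l fun d => ‖β d w‖)
include hq hq'

theorem eD : P.tw.EL (N := fun _ => Eu (Fin N)) k fun d i =>
    ((s d i).cfg c (w d i) (q d)).eD (P.S d i).G (Nd.pt (n := n) (P.K d i) (β d)) :=
  (el_eD (n := n) (H.nh nd γ) hq hq').congr' fun d i x => congrArg (_ - ·)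
    (congrFun (pt_z Nd (P.K d i) ((s d i).cfg c (w d i) (q d)) c.z0 (β d)).1 x)

theorem eC : P.tw.EL (N := fun _ => Fm (Option κ × Option κ) (HS (Fin N))) k fun d i =>
    ((s d i).cfg c (w d i) (q d)).eC (P.S d i).B (P.S d i).G (Nd.pt (n := n) (P.K d i) (β d)) :=
  (el_eC (n := n) (H.nh nd γ) hq hq').congr' fun d i x => by
    rw [Cfg.eC, Cfg.eC, ← (pt_z Nd (P.K d i) ((s d i).cfg c (w d i) (q d)) c.z0 (β d)).2]
    rfl

end SP

end Crest.Agent.X212.Lcz33
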